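import Vale.Agent.P073Y.Zn2.Sk
import Vale.Agent.P073Y.Zn.Cubes
import Vale.Agent.P073Y.Zn.Modl

/-!
# The free cubes with their form; the moduli over one region
-/

open Set Metric Topology Filter MeasureTheory
open scoped NNReal ENNReal

namespace P073.Zn

open P073.Top

namespace Cub

variable {Ω : Set E3} {S : Src Ω} {w₀ : E3} {w : S.Q.ι → ℝ≥0∞} {p : ℝ}

/-- the cube in one ball -/
theorem one2 (hp : 0 < p) (h : E3 → E3) {x : E3} {r σ : ℝ} (hc : Cand S w₀ σ (closedBall x r) w)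
    (hs : 100 * σ ≤ r) {B : Type} (F : Finset B) (x' : B → E3) (r' : B → ℝ)
    (h0 : ∀ b ∈ F, 0 ≤ r' b) (hF : ∑ b ∈ F, (2 * r' b + σ) ≤ 3 / 100 * r) {El : Set S.Q.ι}
    (hE : ∀ φ, S.Q.dim φ = 2 → S.Q.cell φ ⊆ closedBall x r →
      Disjoint (S.Q.cell φ) (ball x (r / 2)) →
      (∀ b ∈ F, Disjoint (S.Q.cell φ) (closedBall (x' b) (r' b))) → φ ∈ El) :
    ∃ y s, (y ∈ latt w₀ σ ∧ ∃ m : ℕ, s = m * σ) ∧ 0 < s ∧ S.Q.Sub (closedBall y s) ∧
      ball x (r / 2) ⊆ ball y s ∧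
      closedBall y s ⊆ closedBall x r ∧ (∀ b ∈ F, closedBall (x' b) (r' b) ⊆ ball y s ∨
        Disjoint (closedBall (x' b) (r' b)) (closedBall y s)) ∧
      ENNReal.ofReal s * En 2 p h (sphere y s) ≤
        3 * tot (El ∩ {φ | S.Q.cell φ ⊆ closedBall x r}) fun φ => w φ * S.E p h φ := by
  have hσ := hc.pos
  obtain ⟨q, hq, hd⟩ := exists_latt w₀ x hσ
  obtain ⟨G, g1, g2⟩ := count F (fun b => (dist (x' b) q - r' b) / σ)
    (fun b => (dist (x' b) q + r' b) / σ) (R := r / σ) ((le_div_iff₀ hσ).2 hs)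
    (fun b hb => ⟨by gcongr; linarith [h0 b hb], by have := h0 b hb; positivity⟩) (by
      rw [← mul_div_assoc, le_div_iff₀ hσ, Finset.sum_mul]
      refine le_of_eq_of_le (Finset.sum_congr rfl fun b _ => ?_) hF
      field_simp
      ring)
  rw [div_le_iff₀ hσ] at g1
  have key : ∀ i ∈ G, 1 ≤ i ∧ (i : ℝ) * σ ≤ r ∧ ball x (r / 2) ⊆ ball q (i * σ) ∧
      closedBall q (i * σ) ⊆ closedBall x r ∧ ∀ b ∈ F, closedBall (x' b) (r' b) ⊆ ball q (i * σ) ∨
        Disjoint (closedBall (x' b) (r' b)) (closedBall q (i * σ)) := fun i hi => by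
    obtain ⟨a1, a2, a3⟩ := g2 i hi
    have e : r / σ * σ = r := div_mul_cancel₀ r hσ.ne'
    have a0 : 0 ≤ r / σ := div_nonneg (by linarith) hσ.le
    refine ⟨Nat.one_le_cast.1 (by linarith : (1 : ℝ) ≤ i), by nlinarith,
      ball_subset_ball' (by nlinarith), closedBall_subset_closedBall' (by
        rw [dist_comm]; nlinarith), fun b hb => (a3 b hb).symm.imp (fun e => ?_) fun e => ?_⟩
    · exact closedBall_subset_ball' (by linarith [(div_lt_iff₀ hσ).1 e])
    · exact closedBall_disjoint_closedBall (by linarith [(lt_div_iff₀ hσ).1 e])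
  have hG : G.Nonempty := Finset.card_pos.1 (Nat.cast_pos.1 (by nlinarith : (0 : ℝ) < G.card))
  obtain ⟨i, hi, hmin⟩ := G.exists_min_image (fun j => En 2 p h (sphere q (j * σ))) hG
  obtain ⟨a1, a2, a3, a4, a5⟩ := key i hi
  refine ⟨q, i * σ, ⟨hq, i, rfl⟩, mul_pos (Nat.cast_pos.2 a1) hσ, hc.sub q hq i a1 a4, a3, a4, a5,
    ?_⟩
  have h1 : ENNReal.ofReal (i * σ) ≤ 3 * (G.card * ENNReal.ofReal σ) := by
    refine (ENNReal.ofReal_le_ofReal (a2.trans g1)).trans_eq ?_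
    rw [mul_assoc, ENNReal.ofReal_mul (by norm_num), ENNReal.ofReal_mul (Nat.cast_nonneg _),
      ENNReal.ofReal_natCast, ENNReal.ofReal_ofNat]
  refine (mul_le_mul_left h1 _).trans ?_
  rw [mul_assoc, mul_assoc, ← nsmul_eq_mul]
  refine mul_le_mul_right ((Finset.card_nsmul_le_sum G
    (fun j => tot {φ | S.Q.cell φ ⊆ sphere q (j * σ) ∧ S.Q.dim φ = 2} fun φ => w φ * S.E p h φ) _
    fun j hj => (mul_le_mul_right (hmin j hj) _).trans
      (en_sphere hp h hc hq (key j hj).1 (key j hj).2.2.2.1)).trans ?_) _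
  rw [← Finset.tsum_subtype]
  refine tot_disj _ (fun k l φ hk hl => ?_) fun k φ hk => ?_
  · obtain ⟨u, hu⟩ := S.Q.cell_nonempty φ
    exact Subtype.ext (Nat.cast_injective (R := ℝ)
      (mul_right_cancel₀ hσ.ne' ((mem_sphere.1 (hk.1 hu)).symm.trans (hl.1 hu))))
  · obtain ⟨-, -, b3, b4, b5⟩ := key k.1 k.2
    have b6 := hk.1.trans (sphere_subset_closedBall.trans b4)
    refine ⟨hE φ hk.2 b6 (sphere_disjoint_ball.mono hk.1 b3) fun b hb => ?_, b6⟩
    rcases b5 b hb with e | e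
    · exact sphere_disjoint_ball.mono hk.1 e
    · exact e.symm.mono_left (hk.1.trans sphere_subset_closedBall)

end Cub

open Cub in
theorem cubes2 {p : ℝ} (hp : 0 < p) : CUBES2 p := by
  refine ⟨6, fun {Ω} S h w₀ w A A' x r σ x' r' σ' n El hB hB' hn hE => ?_⟩
  have hfin : ∀ a, {b | (closedBall (x a) (r a) ∩ closedBall (x' b) (r' b)).Nonempty}.Finite :=
    fun a => finite_of_encard_le_coe (hn a).1
  choose y s y1 y2 y3 y4 y5 y6 using fun a => one hp h (hB.cand a) (hB.small a) (hfin a).toFinset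
    x' r' (fun b _ => (r_pos hB' b).le) (El := El) (by
      have h1 : ((hfin a).toFinset.card : ℝ) ≤ n a := by
        have := (hn a).1
        rw [(hfin a).encard_eq_coe_toFinset_card] at this
        exact_mod_cast this
      have h2 := (hB.cand a).pos
      have h3 : (n a : ℝ) * ∑ b ∈ (hfin a).toFinset, (2 * r' b + σ a) ≤ n a * (3 / 100 * r a) := by
        rw [Finset.mul_sum]
        refine (Finset.sum_le_card_nsmul _ _ (3 / 100 * r a) fun b hb => ?_).trans ?_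
        · nlinarith [(hn a).2.2 b ((hfin a).mem_toFinset.1 hb), (hn a).2.1]
        · rw [nsmul_eq_mul]
          exact mul_le_mul_of_nonneg_right h1 (by linarith [r_pos hB a])
      rcases (Nat.cast_nonneg (α := ℝ) (n a)).eq_or_lt with e | e
      · rw [Finset.card_eq_zero.1 (Nat.cast_eq_zero.1 ((h1.trans_eq e.symm).antisymm
          (Nat.cast_nonneg _))), Finset.sum_empty]
        linarith [r_pos hB a]
      · exact le_of_mul_le_mul_left h3 e)
    fun φ h1 h2 h3 h4 => by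
      refine (hE φ h1 (Or.inl ⟨a, h2⟩)).resolve_right ?_
      rintro (h5 | ⟨b, hb⟩)
      · exact not_junk hB h2 h3 h5
      · obtain ⟨u, hu⟩ := S.Q.cell_nonempty φ
        have h6 := half_sub hB' b (hb hu)
        exact (h4 b ((hfin a).mem_toFinset.2 ⟨u, h2 hu, h6⟩)).notMem_of_mem_left hu h6
  let Kp : Type := {b : A' // ∀ a, Disjoint (closedBall (x' b) (r' b)) (closedBall (y a) (s a))}
  choose y' s' z0 z1 z2 z3 z4 _ z6 using fun b : Kp => one2 hp h (hB'.cand b.1) (hB'.small b.1) ∅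
    x r (fun _ h => absurd h (Finset.notMem_empty _)) (El := El)
    (by rw [Finset.sum_empty]; linarith [r_pos hB' b.1]) fun φ h1 h2 h3 _ => by
      refine (hE φ h1 (Or.inr ⟨b.1, h2⟩)).resolve_right ?_
      rintro (⟨a, ha⟩ | h5)
      · obtain ⟨u, hu⟩ := S.Q.cell_nonempty φ
        exact (b.2 a).notMem_of_mem_left (h2 hu) (ball_subset_closedBall (y3 a (ha hu)))
      · exact not_junk hB' h2 h3 h5
  refine ⟨A ⊕ Kp, Sum.elim y y', Sum.elim s s', ⟨?_, ?_, ?_, fun u hu => ?_⟩, ?_, ?_, ?_⟩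
  · rintro (a | b)
    exacts [y1 a, z1 b]
  · rintro (a | b)
    exacts [y2 a, z2 b]
  · rintro (a | b) (a' | b') hne
    · exact (hB.disj a a' fun e => hne (congrArg _ e)).mono (y4 a) (y4 a')
    · exact (b'.2 a).symm.mono_right (z4 b')
    · exact (b.2 a').mono_left (z4 b)
    · exact (hB'.disj b.1 b'.1 fun e => hne (congrArg _ (Subtype.ext e))).mono (z4 b) (z4 b')
  · obtain ⟨U, hU, h1⟩ := hB.lf u hu
    obtain ⟨U', hU', h2⟩ := hB'.lf u hu
    refine ⟨U ∩ U', inter_mem hU hU', finite_preimage_inl_and_inr.1 ⟨h1.subset fun a ha => ?_,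
      (h2.preimage Subtype.val_injective.injOn).subset fun b hb => ?_⟩⟩
    · exact Nonempty.mono (inter_subset_inter (y4 a) inter_subset_left) ha
    · exact Nonempty.mono (inter_subset_inter (z4 b) inter_subset_right) hb
  · rintro (a | b)
    exacts [Or.inl ⟨a, y4 a⟩, Or.inr ⟨b.1, z4 b, z0 b⟩]
  · rintro φ (⟨a, ha⟩ | ⟨b, hb⟩)
    · exact ⟨.inl a, ha.trans (y3 a)⟩
    by_cases hk : ∀ a, Disjoint (closedBall (x' b) (r' b)) (closedBall (y a) (s a))
    · exact ⟨.inr ⟨b, hk⟩, hb.trans (z3 ⟨b, hk⟩)⟩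
    · obtain ⟨a, ha⟩ := not_forall.1 hk
      obtain ⟨u, h1, h2⟩ := not_disjoint_iff.1 ha
      exact ⟨.inl a, hb.trans ((half_sub hB' b).trans
        ((y5 a b ((hfin a).mem_toFinset.2 ⟨u, y4 a h2, h1⟩)).resolve_right ha))⟩
  · rw [ENNReal.summable.tsum_sum ENNReal.summable]
    refine (add_le_add (sum_le hB Function.injective_id El _ y6)
      (sum_le hB' Subtype.val_injective El _ z6)).trans_eq ?_
    rw [← add_mul]
    norm_num

open Modl in
theorem modl0 : MODL0 := by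
  intro k Λ I Z R R' γ' hlf hdis hγ' hR hc hs
  choose a b ha hb _ using fun i => (Z i).cond
  have hI : {i | ((Z i).supp ∩ R').Nonempty}.Finite := hlf.finite_meet hc hs
  obtain ⟨M, M1, hM⟩ := exists_bound hI fun i => a i
  obtain ⟨L, L1, hL⟩ := exists_bound hI fun i =>
    max (b i * ((Z i).ci k / (Z i).β₀) * a i) (max (b i * (Z i).ci k * a i) (b i * (Z i).ci k))
  have hγ : 0 < min γ' M⁻¹ := lt_min hγ' (inv_pos.2 (one_pos.trans_le M1))
  refine ⟨min γ' M⁻¹, L, R' ∩ ⋃ i ∈ {i | ((Z i).supp ∩ R').Nonempty}, (Z i).T ⁻¹' pln (Z i).N,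
    hγ, L1, hc.inter_right (hI.isClosed_biUnion fun i _ =>
      (pln_closed _).preimage (Z i).T.continuous), measure_mono_null inter_subset_right
      ((measure_biUnion_null_iff hI.countable).2 fun i _ => pln_null (Z i).N_pos _),
    fun ξ h0 => ?_⟩
  obtain ⟨D, D1, hD⟩ := exists_bound hI fun i => 5 * b i + 2
  have D0 := one_pos.trans_le D1
  refine ⟨ξ / D, div_pos h0 D0, ?_⟩
  intro δ hδ hδ' Ω g h hl
  have h1 : ∀ i, ((Z i).supp ∩ R').Nonempty → (5 * b i + 2) * δ i ≤ ξ := fun i hi =>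
    (mul_le_mul_of_nonneg_right (hD i hi) (hδ i).le).trans ((le_div_iff₀' D0).1 (hδ' i hi))
  have h2 : ∀ x ∈ R, ∀ y, dist y x ≤ min γ' M⁻¹ → y ∈ R' := fun x hx y hy =>
    hR (mem_cthickening_of_dist_le y x _ _ hx (hy.trans (min_le_left _ _)))
  have h3 : ∀ i y, y ∈ (Z i).marg 1 → ∀ j, j ≠ i → y ∉ (Z j).supp := fun i y hy j hj =>
    disjoint_left.1 (hdis i j hj.symm) hy
  have h4 : ∀ i y, y ∈ (Z i).supp → ∀ j, j ≠ i → y ∉ (Z j).supp := fun i y hy =>
    h3 i y (marg_of hy (by simp))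
  have h5 : ∀ i y y', dist y y' ≤ b i * dist ((Z i).T y) ((Z i).T y') := fun i y y' => by
    simpa using (hb i).dist_le_mul ((Z i).T y) ((Z i).T y')
  constructor
  · intro x hx y hy hxR hd
    have key : ∀ i, ((Z i).supp ∩ R').Nonempty → (∀ j, j ≠ i → g x ∉ (Z j).supp) →
        (∀ j, j ≠ i → g y ∉ (Z j).supp) →
        dist (h y) (h x) ≤ L * dist (g y) (g x) + ξ := fun i hi a1 a2 => by
      have a3 := (hl.geo i).fwd y ⟨hy, a2⟩ x ⟨hx, a1⟩
      have a4 := mul_le_mul_of_nonneg_left ((ha i).dist_le_mul (g y) (g x))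
        (div_nonneg ((Z i).ci k).2 (Z i).β₀_pos.le)
      have a5 := mul_le_mul_of_nonneg_right ((le_max_left _ _).trans (hL i hi))
        (dist_nonneg (x := g y) (y := g x))
      have a6 := mul_le_mul_of_nonneg_left (a3.trans (add_le_add_left a4 _)) (b i).coe_nonneg
      have a7 := h1 i hi
      have a8 := mul_nonneg (b i).coe_nonneg (hδ i).le
      have a9 := h5 i (h y) (h x)
      simp only [Function.comp, NNReal.val_eq_coe] at a6
      linarith [(hδ i)]
    by_cases hc : ∃ i, g x ∈ (Z i).supp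
    · obtain ⟨i, hi⟩ := hc
      have a1 : ((Z i).supp ∩ R').Nonempty :=
        ⟨h x, (hl.mem i x hx).2 hi, h2 _ hxR _ (by simpa using hγ.le)⟩
      refine key i a1 (h4 i _ hi) (h3 i _ (marg_of hi (((ha i).dist_le_mul _ _).trans ?_)))
      have a2 := mul_le_mul (hM i a1) (hd.trans (min_le_right _ _)) dist_nonneg
        (zero_le_one.trans M1)
      rwa [mul_inv_cancel₀ (one_pos.trans_le M1).ne'] at a2
    push Not at hc
    have e := hl.off x hx hc
    by_cases hc' : ∃ i, g y ∈ (Z i).supp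
    · obtain ⟨i, hi⟩ := hc'
      exact key i ⟨g y, hi, h2 _ (e ▸ hxR) _ hd⟩ (fun j _ => hc j) (h4 i _ hi)
    push Not at hc'
    rw [e, hl.off y hy hc']
    nlinarith [L1, dist_nonneg (x := g y) (y := g x)]
  intro d d1 d2 x hx y hy hxR hP hd
  have key : ∀ i, ∀ w ∈ ball (h x) d, w ∈ (Z i).supp →
      dist (g y) (g x) ≤ L * (dist (h y) (h x) + ξ) := fun i w hw hi => by
    have a0 : ∀ u ∈ ball (h x) d, u ∈ R' := fun u hu => h2 _ hxR _ ((mem_ball.1 hu).le.trans d2)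
    have a1 : ((Z i).supp ∩ R').Nonempty := ⟨w, hi, a0 w hw⟩
    obtain ⟨z, z1, z2⟩ := mem_iUnion₂.1 hi
    have a2 := h1 i a1
    have a3 := mul_nonneg (b i).coe_nonneg (hδ i).le
    have a4 : ∀ u, dist u (h x) ≤ d / 2 → (Z i).T u ∈ lbox (Z i).N (2 * δ i) z := fun u hu =>
      inside (Z i).N_pos (Z i).T (hb i) (fun v hv hp => hP (mem_thickening_iff.2
        ⟨v, ⟨a0 v hv, mem_biUnion a1 hp⟩, mem_ball'.1 hv⟩)) hw z2 (by linarith [(hδ i)])
        (by linarith [(hδ i)]) hu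
    have a5 : ∀ u ∈ Ω, dist (h u) (h x) ≤ d / 2 → ∀ j, j ≠ i → g u ∉ (Z j).supp := fun u hu hd =>
      h4 i _ ((hl.mem i u hu).1 (mem_iUnion₂.2
        ⟨z, z1, lbox_mono _ (by linarith [(hδ i)]) z (a4 _ hd)⟩))
    have a6 : dist (h x) (h x) ≤ d / 2 := by rw [dist_self]; linarith
    have a7 := (hl.geo i).inv y ⟨hy, a5 y hy hd⟩ x ⟨hx, a5 x hx a6⟩ z (a4 _ hd) (a4 _ a6)
    have a8 : dist ((Z i).T (h y)) ((Z i).T (h x)) + 2 * δ i ≤ a i * dist (h y) (h x) + ξ :=
      add_le_add ((ha i).dist_le_mul _ _) (by linarith)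
    have a9 := mul_le_mul_of_nonneg_left (a7.trans
      (mul_le_mul_of_nonneg_left a8 ((Z i).ci k).coe_nonneg)) (b i).coe_nonneg
    have b1 := mul_le_mul_of_nonneg_right ((le_max_left _ _).trans
      ((le_max_right _ _).trans (hL i a1))) (dist_nonneg (x := h y) (y := h x))
    have b2 := mul_le_mul_of_nonneg_right ((le_max_right _ _).trans
      ((le_max_right _ _).trans (hL i a1))) h0.le
    have b3 := h5 i (g y) (g x)
    simp only [Function.comp] at a9
    linarith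
  by_cases hc : ∃ i, h x ∈ (Z i).supp
  · obtain ⟨i, hi⟩ := hc
    exact key i _ (mem_ball_self (by linarith)) hi
  by_cases hc' : ∃ i, h y ∈ (Z i).supp
  · obtain ⟨i, hi⟩ := hc'
    exact key i _ (mem_ball.2 (by linarith)) hi
  push Not at hc hc'
  rw [hl.off x hx fun i hi => hc i ((hl.mem i x hx).2 hi),
    hl.off y hy fun i hi => hc' i ((hl.mem i y hy).2 hi)]
  nlinarith [L1, dist_nonneg (x := g y) (y := g x)]

end P073.Zn
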