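import Vale.Agent.P073Y.Zn2.Sk
import Vale.Agent.P073Y.Zn.Cl
import Vale.Agent.P073Y.Zn.Dyn2

/-!
# The shells and the balls for a modified map
-/

open Set Metric Topology Filter MeasureTheory
open scoped NNReal ENNReal

namespace P073.Zn

open P073.Top

namespace D4

theorem dk_le {d₀ : ℝ} (h : 0 < d₀) (n : ℕ) : dk d₀ n ≤ d₀ :=
  mul_le_of_le_one_right h.le (pow_le_one₀ (by norm_num) (by norm_num))

theorem deep {d₀ t : ℝ} (h : 0 < d₀) (ht : 2 * d₀ ≤ t) (n : ℕ) :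
    (35 / 100 * dk d₀ n < t ∧ (n ≠ 0 → t < 12 / 10 * dk d₀ n)) ↔ n = 0 := by
  have := dk_le h n
  refine ⟨fun h1 => ?_, fun h1 => ⟨by linarith, fun h2 => absurd h1 h2⟩⟩
  by_contra h2
  linarith [h1.2 h2]

variable {k : Cst} {J : Type} {B : Base J} {A : St1 k B}

theorem O_eq (T : Tw A) (n : ℕ) : T.st1.O n = A.O n := by
  ext x
  refine and_congr_right fun hx => ?_
  show (35 / 100 * dk A.d₀ n < infDist (T.f x) B.Λᶜ ∧
    (n ≠ 0 → infDist (T.f x) B.Λᶜ < 12 / 10 * dk A.d₀ n)) ↔ _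
  rcases T.mdf x hx with h | ⟨⟨u, h1, h2⟩, h3⟩
  · rw [h]
  · have h4 := (T.ext.far u h1.1).1
    rw [ClA.dk_zero] at h4
    have h5 := infDist_le_infDist_add_dist (x := B.f u) (y := B.f x) (s := B.Λᶜ)
    have h6 := infDist_le_infDist_add_dist (x := B.f x) (y := T.f x) (s := B.Λᶜ)
    rw [dist_comm] at h5 h6
    have h7 := A.s₀_d
    have h8 := A.d_pos
    rw [deep h8 (by linarith), deep h8 (by linarith)]

end D4

theorem og2_of (H : GAUGE3) : OG2 := by
  intro k J B A s b θ e A₂ κ hκ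
  have hs := A.s₀_pos
  obtain ⟨γ, hγ, ha, hg⟩ := H (fun n => shl B.Λ A.d₀ n (3 / 10) (13 / 10))
    (fun n => min (A₂.o n) (A.s₀ / 4)) (κ * s) B.hom.cont B.hom.mapsTo (A.sh.lf _ _)
    (fun n => lt_min (A₂.o_pos n) (by linarith)) (mul_pos hκ A₂.s_pos)
  refine ⟨γ, hγ, fun T => ⟨D4.O_eq T, fun A₂' c₁ h1 h2 h3 h4 P S g h =>
    ⟨fun c x hx y hy => ?_, fun n c hd hn => ?_⟩⟩⟩
  · exact (h c x hx y hy).elim (·.trans ((min_le_left _ _).trans (ha y))) (·.2)
  have hc : ∀ x ∈ S.Q.cell c, ∀ y ∈ S.Q.cell c, dist (g x) (T.f y) ≤ min (γ y) c₁ :=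
    fun x hx y hy => (h c x hx y hy).resolve_right fun h' =>
      not_disjoint_iff_nonempty_inter.2 h'.1 hd
  intro x hx y hy
  by_cases h5 : 2 ≤ n
  · have he : EqOn T.f B.f (S.Q.cell c) := T.eq_cell (A.far_shl (n := n) (by omega)) (cell_sub c) h1
      hn fun x hx y hy => (hc x hx y hy).trans (min_le_right _ _)
    have h6 := hg _ g (cell_sub c) (fun x hx y hy => by
      rw [← he hy]; exact (hc x hx y hy).trans (min_le_left _ _)) n
      (hn.imp id fun h => by rw [← image_congr he]; exact h) x hx y hy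
    rw [← he hy] at h6
    exact h6.trans (h4 n h5)
  · have h6 := (hc x hx y hy).trans (min_le_right _ _)
    obtain rfl | rfl : n = 0 ∨ n = 1 := by omega
    exacts [h6.trans h2, h6.trans h3]

theorem dyn4 : DYN4 := by
  intro k J B A s b θ e A₂ P κ A₃ S g Tz Pl C hA hT hP hF
  have hj : ∀ u ∈ Tz, ∀ j, u ∉ (B.Y j).G := fun u hu j h => (hT hu).2 (mem_iUnion.2 ⟨j, h⟩)
  obtain ⟨a0, a1⟩ := D2.κ_le A₃
  have a2 := D2.l_le A₂
  have a3 := A₂.l_pos 0
  refine ⟨fun i u hu h => A.sep u (hT hu).1 (hj u hu) (g u) ?_ i (ClA.supp_marg _ h), ?_⟩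
  · linarith [D2.near_self C (B.sub (hT hu).1)]
  intro h Ly m z hz hn x hx hO
  by_cases hm : m = 0
  swap
  · refine Or.inl (disjoint_left.2 fun u hu hu' => ?_)
    have h1 := (hO hu).2.2 (by omega)
    have h2 := (A.far u (hT hu').1).1
    rw [ClA.dk_zero] at h2
    linarith [D4.dk_le A.d_pos (2 * m), A.d_pos]
  subst hm
  have hd : Disjoint (closedBall x (A₃.r 0 z)) Pl := by
    refine disjoint_left.2 fun u hu hu' => ?_
    obtain ⟨d, d1, d2, d3⟩ := hA
    rw [(A₃.wild 0 z hn).2, mem_closedBall'] at hu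
    have h1 : (A₃.Z 0).T (h x) ∈ lbox 1 (-1) z := by
      have := mid_sub z hx.2.1
      rw [(A₃.std 0).N] at this
      exact lbox_mono 1 (by norm_num) z this
    obtain ⟨c, hc⟩ := ClA.exists_cell S hx.1
    have h2 : Disjoint (S.Q.cell c) (cubes P (3 * s / 4)) := disjoint_left.2 fun v hv hv' =>
      hn (D2.nc_of C Ly hv' hx.1 h1 (by linarith [C.app.all c x hc v hv]))
    have h3 := C.app.shell 0 c h2 (Or.inr ⟨_, ⟨x, hc, rfl⟩,
      A.sh.mono (by norm_num) (by norm_num) (D2.shells C Ly hz hx.1 h1).2⟩) x hc x hc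
    have h4 := (d3 u hu').2 x hx.1 hu
    have h5 : dist (g x) (B.f u) ≤ d := by linarith [dist_triangle (g x) (B.f x) (B.f u)]
    have h6 : h x = g x := Ly.off x hx.1 fun i hi =>
      A.sep u (hT (hP hu')).1 (hj u (hP hu')) (g x) (h5.trans d1) i (ClA.supp_marg _ hi)
    refine hx.2.2 ?_
    rw [A₃.T_eq, A₃.X_eq, h6]
    exact (d3 u hu').1 _ h5
  have hs : closedBall x (A₃.r 0 z) ⊆ interior Tz ∪ interior Tzᶜ := by
    rw [← compl_frontier_eq_union_interior]
    exact fun u hu hu' => disjoint_left.1 hd hu (hF hu')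
  rcases (convex_closedBall x (A₃.r 0 z)).isPreconnected.subset_or_subset isOpen_interior
    isOpen_interior (disjoint_compl_right.mono interior_subset interior_subset) hs with h1 | h1
  · exact Or.inr (subset_sdiff.2 ⟨h1.trans interior_subset, hd⟩)
  · exact Or.inl (disjoint_left.2 fun u hu hu' => interior_subset (h1 hu) hu')

end P073.Zn
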