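import Vale.Agent.P073Y.Zn2.Sk

/-!
# The plan for a modified map from its stages
-/

open Set Metric Topology Filter MeasureTheory
open scoped NNReal ENNReal

namespace P073.Zn

open P073.Top
open P073.P2 (Mdf)

theorem plan2_of (h1 : ST1X) (h2 : ST2) (h2' : ST2U) (h3 : ST3) (h4 : OG) (h4' : OG2) (h5 : CL)
    (h6 : DYN1) (h7 : DYN2) (h8 : DYN3) (h9 : DYN4) (k : Cst) : PLAN2 k := by
  refine ⟨kap k, fun b θ hb hθ => kap_pos k hb hθ, ?_⟩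
  intro Ω Λ Ω₀ f f' ε J _ Y hΩ hΛ hb hf hε hc hs hK hG
  let B : Base J := ⟨Ω, Λ, Ω₀, f, f', ε, Y, inferInstance, hΩ, hΛ, hb, hf, hε, hc, hs, hK, hG⟩
  obtain ⟨A₀, ext⟩ := h1 k B
  choose l v hl using fun j => (A₀.ty j).1
  have sp := A₀.s₀_pos
  refine ⟨l, v, A₀.Z, A₀.s₁, A₀.s₀ / 10, A₀.s₁_pos, by positivity,
    fun j => ⟨(hl j).1, (hl j).2, (A₀.ty j).2⟩, A₀.std, ?_⟩
  intro s b θ e s0 s1 b1 θ0 θ1 e0
  obtain ⟨A₀₂⟩ := h2 A₀ s b θ e s0 (by linarith) b1 θ0 θ1 e0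
  have κ0 := kap_pos k b1 θ0
  obtain ⟨o1, o2, o3, -⟩ := h4 A₀₂ (kap k b θ) κ0
  obtain ⟨o, o4, o5⟩ := h4' A₀₂ (kap k b θ) κ0
  refine ⟨o, A₀.O, A₀₂.σ₀, o4, fun n => ⟨(o1 n).1, (o1 n).2, A₀₂.σ_pos n⟩, o2, o3, ?_⟩
  intro f₁ f₁' P Tz Pl t1 t2 hP t3 t4 t5 t6 t7
  let T : Tw A₀ := ⟨f₁, f₁', ext, t1, t2⟩
  obtain ⟨A₂, av, up⟩ := h2' A₀₂ T Pl (by linarith) t4
    (t5.trans (t3.trans (sdiff_subset.trans hs))) t7
  obtain ⟨eO, o5⟩ := o5 T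
  obtain ⟨c₁, c0, c1, c2, c3, c4, c5⟩ : ∃ c₁ : ℝ, 0 < c₁ ∧ c₁ ≤ A₀.s₀ / 4 ∧ c₁ ≤ A₂.o 0 ∧
      c₁ ≤ A₂.o 1 ∧ c₁ ≤ A₂.σ₀ 0 ∧ c₁ ≤ A₂.σ₀ 1 := by
    refine ⟨min (min (A₀.s₀ / 4) (A₂.o 0)) (min (A₂.o 1) (min (A₂.σ₀ 0) (A₂.σ₀ 1))),
      lt_min (lt_min (by positivity) (A₂.o_pos 0))
        (lt_min (A₂.o_pos 1) (lt_min (A₂.σ_pos 0) (A₂.σ_pos 1))), ?_, ?_, ?_, ?_, ?_⟩ <;>
      simp only [min_le_iff, le_refl, true_or, or_true]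
  replace o5 := o5 A₂ c₁ c1 c2 c3 fun n hn => (up n hn).1
  obtain ⟨A₃⟩ := h3 A₂ P hP
  refine ⟨c₁, A₂.σ₀, A₂.δ, fun i _ => A₀.r i, lev, A₂.n, A₃.Z, fun _ => 1 / 100, A₃.r, c0,
    fun n => ?_, A₂.δ_e, fun i _ => A₂.σ₁ i, A₃.std, ?_⟩
  · rcases n with _ | _ | n
    · exact (min_le_right _ _).trans c4
    · exact (min_le_right _ _).trans c5
    · exact (min_le_left _ _).trans (up _ (by omega)).2
  intro S g hg
  rw [← funext eO] at o3 ⊢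
  let A := T.st1
  have C := h5 A₃ S g.toFun (o5 P S g.toFun hg)
  obtain ⟨d1, d2, d3, d4⟩ := h6 A₃ S g.toFun C
  obtain ⟨z1, z2⟩ := h9 A₃ S g.toFun Tz Pl C av t3 t5 t6
  refine ⟨d1, fun j u hu => ?_, d2, fun i z hz x hx => ⟨(d3 i z hz x hx).1, (d3 i z hz x hx).2,
    disjoint_left.2 fun u hu hu' => z1 i u hu'
      ((A.Z i).mem_supp hz ((d1.fit i z hz x hx).2.1 u hu))⟩, d4, ?_⟩
  · have := C.near j u hu
    rwa [(A.ty j).2.2.1] at this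
  intro h hL
  have e1 := h7 A₃ S g.toFun h.toFun C hL
  obtain ⟨f1, f2, f3, f4, f5, f6⟩ := h8 A₃ S g.toFun h.toFun C hL g.mapsTo
  have hκ : kap k b θ * s ≤ A₂.l 0 / 10000 := by
    have := A₃.κ₁
    have h0 : 0 ≤ kap k b θ * s := by positivity
    nlinarith [mul_nonneg h0 (show 0 ≤ b ^ 2 - 1 by nlinarith)]
  have hl0 : A₂.l 0 ≤ A.s₀ := by
    rw [A₂.l_zero, div_le_iff₀ (by linarith)]
    have : s ≤ A.s₀ := A₂.s_le
    nlinarith [A.s₀_pos]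
  have hin : ∀ m, ∀ z ∈ nbr 1 (A₃.Z m).B, ∀ x ∈ Ctr Ω h.toFun (A₃.Z m) z,
      ∀ u ∈ closedBall x (A₃.r m z), u ∈ Ω ∧ h.toFun u ∈ (A₃.Z m).supp := fun m z hz x hx u hu =>
    have := (e1 m z hz).1.fit x hx
    ⟨this.1 hu, (A₃.Z m).mem_supp hz (this.2.1 u hu)⟩
  refine ⟨⟨fun _ => by norm_num, f4, f5, fun i j hij => ?_, fun i z hz => (e1 i z hz).1.go,
    fun i z hz => (e1 i z hz).1.fit⟩, f1, fun m z hz x hx => ?_, f2, fun i z hz x hx => ?_,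
    fun h' hh => f6 h'.toFun hh⟩
  · refine disjoint_left.2 fun c c1 c2 => ?_
    obtain ⟨u, hu, hy⟩ := mem_hit.1 c2
    exact disjoint_left.1 (f3 i j hij)
      (hit_marg (A₃.Z i).toZone (fun z hz => (e1 i z hz).1.osc) c1 u hu)
      ((A₃.Z j).supp_marg zero_le_two hy)
  · obtain ⟨g1, g2, g3, g4⟩ := (e1 m z hz).2 x hx
    refine ⟨⟨disjoint_left.2 fun u hu hu' => ?_, g2⟩, ?_⟩
    · obtain ⟨u1, u2⟩ := hin m z hz x hx u hu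
      rcases hu' with hu' | hu'
      · obtain ⟨j, hj⟩ := mem_iUnion.1 hu'
        exact f1 j u ⟨hj, u1⟩ m u2
      · rw [hL.off u u1 (d4 u hu').1] at u2
        exact (d4 u hu').2 m u2
    · by_cases hn : A₂.NC P m z
      · obtain ⟨q, q1, q2⟩ := g4 hn
        refine Or.inr ⟨q, q1, q2, ?_⟩
        rw [(A₃.nc m z hn).2, le_div_iff₀ (by linarith)]
        have := A₃.κ₁
        have h0 : 0 ≤ kap k b θ * s := by positivity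
        nlinarith [mul_nonneg h0 (show 0 ≤ b ^ 2 - b by nlinarith)]
      · refine Or.inl ⟨2 * m, subset_sdiff.2 ⟨g1, g3 hn⟩, ?_, z2 _ hL m z hz hn x hx g1⟩
        rw [(A₃.wild m z hn).2]
        exact A₂.σ₂ m
  · refine ⟨{a | 2 * a.1.1 ≤ lev i + 1}, ?_, fun a x' hx' ⟨u, u1, u2⟩ => ?_⟩
    · refine le_trans ?_ (A₂.cnt i)
      refine encard_le_encard_of_injOn (f := fun a : Idx A₃.Z => a.1) (fun a ha => ?_)
        fun a _ a' _ h => Subtype.ext h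
      have := a.2
      rw [A₃.B_eq] at this
      exact ⟨ha, nbr_mono le_rfl (bx_mono _ sdiff_subset) this⟩
    · obtain ⟨g1, -, -, g4⟩ := (e1 a.1.1 a.1.2 a.2).2 x' hx'
      have a1 : u ∈ A.O (lev i) := ((d3 i z hz x hx).2 u1).1
      have a2 : u ∈ A.O (2 * a.1.1) := g1 u2
      have b2 : 2 * a.1.1 ≤ lev i + 1 := by
        by_contra hn
        exact disjoint_left.1 (o3 _ _ (by omega)) a1 a2
      have b3 : lev i ≤ 2 * a.1.1 + 1 := by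
        by_contra hn
        exact disjoint_left.1 (o3 _ _ (by omega)) a2 a1
      refine ⟨b2, ?_⟩
      by_cases hn : A₂.NC P a.1.1 a.1.2
      · obtain ⟨q, q1, q2⟩ := g4 hn
        have c1 := d1.fit i z hz x hx
        obtain ⟨c, hc'⟩ := S.Q.mem_carrier.1 (S.carrier.ge (c1.1 u1))
        refine absurd ((A.Z i).supp_marg zero_le_two ((A.Z i).mem_supp hz (c1.2.1 u u1)))
          (C.sep u (mem_biUnion q1 (q2 u2)) _ ((C.app.all c u hc' u hc').trans ?_) i)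
        linarith [A₂.l_pos 0]
      · rw [(A₃.wild _ _ hn).2]
        exact A₂.rad i _ b2 b3

end P073.Zn
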