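import Vale.Agent.P073Y.Zn2.Sk
import Vale.Agent.P073Y.Zn.St1

/-!
# The plan for a modified map: existence of the first stage
-/

open Set Metric Topology Filter MeasureTheory
open scoped NNReal ENNReal

namespace P073.Zn

open P073.Top

open S1 in
theorem st1x_of (hs : SHLS) (ht : TYZ) (hz : STDZ) (hf : FIT1) (he : EXCL) : ST1X := by
  intro k J B
  have := B.fin
  obtain ⟨d, hd, far, far3⟩ : ∃ d, 0 < d ∧ (∀ x ∈ B.Ω₀, B.f x ∈ shl B.Λ d 0 2 0) ∧
      ∀ x ∈ B.Ω₀, B.f x ∈ shl B.Λ d 0 3 0 := by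
    obtain ⟨d, hd, far⟩ := ex_d B
    refine ⟨d / 2, half_pos hd, fun x hx => ⟨?_, fun h => (h rfl).elim⟩,
      fun x hx => ⟨?_, fun h => (h rfl).elim⟩⟩ <;>
    · have := (far x hx).1
      rw [dk_zero] at this ⊢
      linarith
  have sh := hs B.opn' B.bdd hd
  have hε := B.ε_pos
  choose Zt l v s l0 s0 t1 t2 t3 t4 t5 t6 t7 t8 t9 t10 using fun j =>
    ht (B.Y j) (B.f '' (B.Y j).G ∩ {y | 3 / 2 * d < infDist y B.Λᶜ}) (min (B.ε / 10) (d / 200))
      B.opn B.hom ((open_im B j).inter (isOpen_lt continuous_const (continuous_infDist_pt _)))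
      (by
        rintro _ ⟨x, hx, rfl⟩
        have := (far x (B.K_sub j hx)).1
        rw [dk_zero] at this
        exact ⟨⟨x, (B.Y j).sub hx, rfl⟩, show 3 / 2 * d < infDist (B.f x) B.Λᶜ by linarith⟩) (by positivity)
  choose Zs u1 u2 u3 u4 u5 u6 u7 u8 using fun m : ℕ =>
    hz (shl B.Λ d (2 * m + 1) (1 / 2) 1) (min (dk d (2 * m + 1) / 1000) (B.ε / 100))
      (sh.cpt (by norm_num)).isBounded (by have := dk_pos hd (2 * m + 1); positivity)
  set Z : J ⊕ ℕ → Zone := Sum.elim Zt Zs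
  have m0 : ∀ j, (Zt j).marg 2 ⊆ shl B.Λ d 0 (3 / 2) (101 / 100) := fun j y hy =>
    ⟨by rw [dk_zero]; exact (t6 j hy).2.le, fun h0 => (h0 rfl).elim⟩
  have mg : ∀ i, (Z i).marg 2 ⊆ shl B.Λ d (lev i) (49 / 100) (101 / 100) := by
    rintro (j | m)
    · exact (m0 j).trans (sh.mono (by norm_num) le_rfl)
    · intro y hy
      obtain ⟨y', h1, h2⟩ := u8 m y hy
      exact sh.mono (k := 2 * m + 1) (by norm_num) (by norm_num) (sh.move (c := 4 / 1000) h1
        (h2.trans (by linarith [min_le_left (dk d (2 * m + 1) / 1000) (B.ε / 100)])))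
  choose r₀ r0 fit using fun i => hf (Z i) B.opn B.hom ((mg i).trans (sh.sub (by norm_num)))
  obtain ⟨s₁, s1, hs₁⟩ := ex_min (fun j => min (s j / 4) (r₀ (.inl j))) fun j =>
    lt_min (by linarith [s0 j]) (r0 _)
  have c4 : ∀ j, cthickening (4 * s₁) (B.Y j).K ⊆ cthickening (s j) (B.Y j).K := fun j =>
    cthickening_mono (by linarith [(hs₁ j).trans (min_le_left _ _)]) _
  set r : J ⊕ ℕ → ℝ := Sum.elim (fun _ => s₁) fun m => r₀ (.inr m)
  have r1 : ∀ i, 0 < r i ∧ r i ≤ r₀ i := by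
    rintro (j | m)
    · exact ⟨s1, (hs₁ j).trans (min_le_right _ _)⟩
    · exact ⟨r0 _, le_rfl⟩
  choose β β0 β1 fit using fun i => fit i (r i) (r1 i).1 (r1 i).2
  let D : J ⊕ ℕ → ZD := fun i => match i with
    | .inl j => ⟨Zt j, (B.Y j).θ, (B.Y j).ϑ, (B.Y j).L,
        (Zt j).T '' (B.f '' cthickening (4 * s₁) (B.Y j).K), fun _ _ => β (.inl j), β (.inl j),
        (B.Y j).θ_pos, (B.Y j).θ_le, (B.Y j).ϑ_pos, (B.Y j).ϑ_le, t2 j, β0 _, β1 _,
        fun _ _ => ⟨le_rfl, β1 _⟩, fun z _ => (mul_le_mul_right (measure_mono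
          (inter_subset_inter_left _ (image_mono (image_mono (c4 j))))) 2).trans (t9 j z)⟩
    | .inr m => ⟨Zs m, 1 / 1000, 1 / 1000, 1, ∅, fun _ _ => β (.inr m), β (.inr m), by norm_num,
        le_rfl, by norm_num, le_rfl, u2 m, β0 _, β1 _, fun _ _ => ⟨le_rfl, β1 _⟩,
        fun z _ => by simp⟩
  have eD : ∀ i, (D i).toZone = Z i ∧ ∀ z c, (D i).β z c = β i := by
    rintro (j | m) <;> exact ⟨rfl, fun _ _ => rfl⟩
  choose a a0 ha using fun j => (t2 j).elim fun _ h => h.elim fun _ h =>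
    uniformContinuous_iff_le.1 h.1.uniformContinuous (1 / 20) (by norm_num)
  obtain ⟨a₀, a1, ha₀⟩ := ex_min a a0
  have hC : IsCompact (B.f '' (B.Ω₀ \ ⋃ j, (B.Y j).G)) :=
    (B.cpt.diff (isOpen_iUnion fun j => (B.Y j).opn)).image_of_continuousOn
      (B.hom.cont.mono (sdiff_subset.trans B.sub))
  obtain ⟨δ, δ0, hδ⟩ := hC.exists_cthickening_subset_open
    (isClosed_iUnion_of_finite fun j => closed_marg (Zt j) 2).isOpen_compl (by
      rintro _ ⟨x, hx, rfl⟩ h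
      obtain ⟨j, hj⟩ := mem_iUnion.1 h
      obtain ⟨x', h1, h2⟩ := (t6 j hj).1
      exact hx.2 (mem_iUnion.2 ⟨j, inj B ((B.Y j).subΩ h1) (B.sub hx.1) h2 ▸ h1⟩))
  have d1 : ∀ (m : ℕ) {a b : ℝ}, 1 ≤ a → Disjoint (shl B.Λ d 0 a b) ((Zs m).marg 2) :=
    fun m a b h => (sh.disj₀ (k' := 2 * m + 1) (by omega) (by norm_num) (by linarith)).mono_right
      (mg (.inr m))
  have d2 : ∀ m m', m < m' → Disjoint ((Zs m).marg 2) ((Zs m').marg 2) := fun m m' h =>
    (sh.disj (k := 2 * m + 1) (k' := 2 * m' + 1) (by omega) (by norm_num) (by norm_num)).mono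
      (mg (.inr m)) (mg (.inr m'))
  have mD : ∀ i, (D i).marg 2 ⊆ shl B.Λ d (lev i) (49 / 100) (101 / 100) :=
    fun i => (eD i).1 ▸ mg i
  refine ⟨⟨d, D, r, s₁, min (min (d / 1000) (B.ε / 100)) (min δ a₀), hd, sh, far, s1,
    by positivity, (min_le_left _ _).trans (min_le_left _ _),
    (min_le_left _ _).trans (min_le_right _ _), fun i => (r1 i).1,
    fun j => ⟨⟨l j, v j, l0 j, t1 j⟩, ?_, t3 j, t4 j, rfl, rfl, rfl⟩,
    fun m => ⟨u3 m, u4 m, rfl, rfl, rfl⟩, mD, ?_,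
    fun j y hy => (t6 j hy).1, ?_, fun y hy => ?_, u6, fun i δ hδ => ?_,
    fun j => ⟨a j, a0 j, fun u hu y hy => t10 j u (c4 j (cthickening_mono (by linarith) _
      (thickening_subset_cthickening _ _ hu))) y (ha j hy)⟩, fun j => ?_, fun u hu hG y hy => ?_,
    fun j y y' h => (ha j (h.trans ((min_le_right _ _).trans ((min_le_right _ _).trans
      (ha₀ j))))).trans (by norm_num)⟩, far3, fun j x hx => ?_⟩
  · exact t5 j
  · rintro (j | m) z y y' h h'
    · exact (t7 j z y y' h h').trans_eq (by rw [lev, dk_zero])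
    · refine (u7 m z y y' h h').trans (le_min ?_ ?_)
      · linarith [min_le_right (dk d (2 * m + 1) / 1000) (B.ε / 100)]
      · rw [lev]
        linarith [min_le_left (dk d (2 * m + 1) / 1000) (B.ε / 100)]
  · rintro (j | m) (j' | m') h
    · exact ((B.G_disj j j' fun e => h (e ▸ rfl)).image (inj B) (B.Y j).subΩ (B.Y j').subΩ).mono
        (fun y hy => (t6 j hy).1) fun y hy => (t6 j' hy).1
    · exact (d1 m' (by norm_num)).mono_left (m0 j)
    · exact ((d1 m (by norm_num)).mono_left (m0 j')).symm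
    · rcases lt_or_gt_of_ne (show m ≠ m' from fun e => h (e ▸ rfl)) with h | h
      · exact d2 _ _ h
      · exact (d2 _ _ h).symm
  · obtain ⟨U, hU, h⟩ := sh.lf (49 / 100) (101 / 100) y hy
    exact ⟨U, hU, (h.preimage' fun b _ => lev_fin b).subset fun i hi =>
      Set.Nonempty.mono (inter_subset_inter_left _ (mD i)) hi⟩
  · have o0 : 0 < (D i).o k δ := div_pos (mul_pos hδ (D i).t_pos) (by positivity)
    obtain ⟨o, h1, h2⟩ := fit i (min 1 ((D i).o k δ * β i)) (lt_min one_pos (mul_pos o0 (β0 i)))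
    refine ⟨o, h1, fun S g hg z hz => ?_⟩
    rw [← (eD i).1] at h2
    obtain ⟨h3, h4⟩ := h2 S g (D i) rfl (eD i).2 hg z hz
    exact ⟨GO.of_osc h3 o0.le fun c _ => (eD i).2 z c ▸ min_le_right _ _,
      fun c hc x hx y hy => (h3 c hc x hx y hy).trans (min_le_left _ _), h4⟩
  · obtain ⟨o, h1, h2⟩ := he B.opn' B.hom (B.Y j).cpt s1 ((c4 j).trans (t8 j))
    exact ⟨o, h1, fun x y h h' => h2 x y h fun h'' => h' (mem_image_of_mem _ h'')⟩
  · rintro (j | m) h
    · exact hδ (mem_cthickening_of_dist_le y _ δ _ (mem_image_of_mem _ ⟨hu, by simpa using hG⟩)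
        (hy.trans ((min_le_right _ _).trans (min_le_left _ _)))) (mem_iUnion.2 ⟨j, h⟩)
    · exact disjoint_left.1 (d1 m (by norm_num)) (sh.move (c := 1 / 1000) (far u hu) (hy.trans
        ((min_le_left _ _).trans ((min_le_left _ _).trans_eq (by rw [dk_zero]; ring))))) h
  · obtain ⟨u, h1, h2⟩ := hx
    have h3 : x ∈ cthickening (s j) (B.Y j).K := by
      obtain ⟨y, h4, h5⟩ := mem_thickening_iff.1 h2
      have h6 : dist u x ≤ s₁ := h1
      exact c4 j (mem_cthickening_of_dist_le x y _ _ h4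
        (by linarith [dist_triangle_left x y u, show dist u y < s₁ from h5]))
    obtain ⟨z, h4, h5⟩ := t10 j x h3 (B.f x) (by rw [dist_self]; norm_num)
    exact ⟨t8 j h3, mem_biUnion (sub_nbr 1 _ (h4 (sub_nbr 1 _ rfl)))
      (lbox_mono _ (by norm_num) z h5)⟩

end P073.Zn
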