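import Vale.Agent.P073Y.Zn2.Sk
import Vale.Agent.P073Y.Zn.St2

/-!
# The plan for a modified map: the second stage
-/

open Set Metric Topology Filter MeasureTheory
open scoped NNReal ENNReal Pointwise

namespace P073.Zn

open P073.Top St2x

namespace St2y

theorem geo_mono {N : ℕ} {B : Set (Fin 3 → ℤ)} {C : ℝ≥0} {δ δ' β₀ : ℝ} {X : Set E3}
    {g h : E3 → E3} (H : Geo N B C δ β₀ X g h) (hδ : δ ≤ δ') : Geo N B C δ' β₀ X g h where
  off := H.off
  keep x hx z hz := lbox_mono _ (neg_le_neg hδ) z (H.keep x hx z hz)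
  fwd x hx y hy := (H.fwd x hx y hy).trans (by linarith)
  inv x hx y hy z h1 h2 := (H.inv x hx y hy z (lbox_mono _ (by linarith) z h1)
    (lbox_mono _ (by linarith) z h2)).trans
      (mul_le_mul_of_nonneg_left (by linarith) C.coe_nonneg)

theorem lay_mono {k : Cst} {Ω : Set E3} {I : Type} {Z : I → ZD} {δ δ' : I → ℝ} {g h : E3 → E3}
    (H : Lay k Ω Z δ g h) (hδ : ∀ i, δ i ≤ δ' i) : Lay k Ω Z δ' g h :=
  ⟨H.off, H.mem, fun i => geo_mono (H.geo i) (hδ i)⟩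

/-- a sequence with a new value at zero -/
def up {α : Type} (a : α) (u : ℕ → α) : ℕ → α
  | 0 => a
  | m + 1 => u (m + 1)

theorem up_ne {α : Type} {a : α} {u : ℕ → α} {m : ℕ} (h : m ≠ 0) : up a u m = u m := by
  cases m with
  | zero => exact absurd rfl h
  | succ m => rfl

theorem up_le {a : ℝ} {u : ℕ → ℝ} (h : a ≤ u 0) : ∀ m, up a u m ≤ u m
  | 0 => h
  | _ + 1 => le_rfl

theorem unif {Ω K : Set E3} {f : E3 → E3} (hΩ : IsOpen Ω) (hf : ContinuousOn f Ω)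
    (hK : IsCompact K) (hs : K ⊆ Ω) {a : ℝ} (ha : 0 < a) :
    ∃ r : ℝ, 0 < r ∧ ∀ u ∈ K, ∀ x, dist x u ≤ r → dist (f x) (f u) ≤ a := by
  obtain ⟨r, r0, h⟩ := mem_uniformity_dist.1 (hK.uniformContinuousAt_of_continuousAt f
    (fun u hu => hf.continuousAt (hΩ.mem_nhds (hs hu))) (dist_mem_uniformity ha))
  refine ⟨r / 2, half_pos r0, fun u hu x hx => ?_⟩
  have h1 : dist (f u) (f x) < a := h (a := u) (b := x) (by rw [dist_comm]; linarith) hu
  rw [dist_comm]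
  exact h1.le

end St2y

open St2y

theorem st2u_of (hZ : STDZ) (hM : MODL0) (hN : NULLT) (hF : FITW) : ST2U := by
  intro k J B A s b θ e A₂ T Pl hs hPl hPΩ hP0
  have := B.fin
  have hd := dk_pos A.d_pos
  have s0 := A.s₀_pos
  have l0 := A₂.l_pos
  obtain ⟨Zs, hT, -⟩ := hZ ∅ (A₂.l 0) Bornology.isBounded_empty (l0 0)
  -- the moduli
  obtain ⟨γ, L, P0, γ0, L1, P1, P2, h2⟩ := hM k (Λ := B.Λ) A.Z
    (shl B.Λ A.d₀ 0 (46 / 100) (104 / 100)) (shl B.Λ A.d₀ 0 (4 / 10) (11 / 10))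
    (1 / 20 * dk A.d₀ 0)
    (fun x hx => (A.lf x hx).imp fun U h => ⟨h.1, h.2.subset fun i hi =>
      hi.mono (inter_subset_inter_left _ (supp_sub _))⟩)
    (fun i j hij => (A.disj i j hij).mono (marg_mono _ one_le_two) (supp_sub _))
    (mul_pos (by norm_num) (hd _)) (fun y hy => by
      rw [(A.sh.cpt (by norm_num)).cthickening_eq_biUnion_closedBall
        (mul_pos (by norm_num) (hd _)).le] at hy
      obtain ⟨x, hx, hy⟩ := mem_iUnion₂.1 hy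
      exact A.sh.mono (by norm_num) (by norm_num) (A.sh.move hx hy))
    (A.sh.cpt (by norm_num)) (A.sh.sub (by norm_num))
  -- the excluded set
  obtain ⟨d, d0, d1, d2⟩ := hN (K := P0 ∪ T.f '' Pl) (F := Zs.T)
    (P1.union (hPl.image_of_continuousOn (T.hom.cont.mono hPΩ))) (lt_min γ0 (half_pos s0))
    Zs.T.continuous.continuousOn (by
      rw [show (Zs.T : E3 → E3) = fun y => (A₂.l 0)⁻¹ • y from funext hT, image_smul,
        Measure.addHaar_smul, measure_union_null P2 hP0, mul_zero])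
  -- radius and cavity
  obtain ⟨r₀, hr₀, h3⟩ := hF (Kc := T.f' '' shl B.Λ A.d₀ 0 (4 / 10) (11 / 10))
    Zs.T 1 (1 / 4) γ L (A₂.l 0 / 4) d B.opn T.hom
    ((A.sh.cpt (by norm_num)).image_of_continuousOn (T.hom.cont_inv.mono (A.sh.sub (by norm_num))))
    ((T.hom.mapsTo_inv.mono_left (A.sh.sub (by norm_num))).image_subset) le_rfl (by norm_num)
    le_rfl L1 (div_pos (l0 0) (by norm_num)) d0 (d1.trans (min_le_left _ _))
  obtain ⟨ru, ru0, hu⟩ := unif B.opn T.hom.cont hPl hPΩ (half_pos d0)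
  have hr : 0 < A₂.r 0 := by linarith [A₂.σ₂ 0, A₂.σ_pos (2 * 0)]
  obtain ⟨r, r0, r1, r2, r3⟩ := pick ((ev hr₀).and ((ev hr).and (ev ru0)))
  obtain ⟨β, β0, β1, h4⟩ := h3 r r0 r1
  set o₀ : ℝ := 1 / 100 * (1 / 4) / (k.K (1 / 1000) (1 / 1000) 1 (1 / 4) + 1) with ho₀
  have o0 : 0 < o₀ := by positivity
  obtain ⟨ξ, ξ0, h5⟩ := h4 (min 1 (o₀ * β)) (lt_min one_pos (mul_pos o0 β0))
  -- errors of the first batch
  obtain ⟨δ₀, δ0, h6⟩ := h2 ξ ξ0
  obtain ⟨δ, δ1, δ2, δ3, δ4⟩ : ∃ δ : J ⊕ ℕ → ℝ, (∀ i, 0 < δ i) ∧ (∀ i, δ i ≤ A₂.δ i) ∧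
      (∀ i, lev i ≤ 1 → δ i ≤ δ₀) ∧ ∀ i, ¬ lev i ≤ 1 → δ i = A₂.δ i := by
    refine ⟨fun i => if lev i ≤ 1 then min (A₂.δ i) δ₀ else A₂.δ i, fun i => ?_, fun i => ?_,
      fun i h => (if_pos h).trans_le (min_le_right _ _), fun i h => if_neg h⟩ <;> dsimp only <;>
      split_ifs
    exacts [lt_min (A₂.δ_mem i).1 δ0, (A₂.δ_mem i).1, min_le_left _ _, le_rfl]
  choose o₁ p1 q1 using fun i => T.st1.fit i (δ i) (δ1 i)
  obtain ⟨c, c0, c1, c2, c3⟩ := pick ((ev ξ0).and ((ev (half_pos d0)).and (ev_lev 1 p1)))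
  obtain ⟨o, o1, o2, o3, o4, o5⟩ : ∃ o : ℕ → ℝ, (∀ n, 0 < o n) ∧ (∀ n, o n ≤ A₂.o n) ∧
      (∀ n, o n ≤ A.s₀ / 4) ∧ (∀ n, n ≤ 1 → o n ≤ c) ∧
      ∀ n, 2 ≤ n → min (A₂.o n) (A.s₀ / 4) ≤ o n := by
    have h : ∀ n, 0 < min (A₂.o n) (A.s₀ / 4) := fun n => lt_min (A₂.o_pos n) (by linarith)
    refine ⟨fun n => if n ≤ 1 then min (min (A₂.o n) (A.s₀ / 4)) c else min (A₂.o n) (A.s₀ / 4),
      fun n => ?_, fun n => ?_, fun n => ?_, fun n hn => (if_pos hn).trans_le (min_le_right _ _),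
      fun n hn => (if_neg (by omega)).ge⟩ <;> dsimp only <;> split_ifs
    exacts [lt_min (h n) c0, h n, (min_le_left _ _).trans (min_le_left _ _), min_le_left _ _,
      (min_le_left _ _).trans (min_le_right _ _), min_le_right _ _]
  have hσ := up_le (u := A₂.σ₀) (min_le_left (A₂.σ₀ 0) (r / 100))
  refine ⟨⟨A₂.l, up (Zs.T '' cthickening d (P0 ∪ T.f '' Pl)) A₂.X, up β A₂.β, up r A₂.r, δ, o,
    up (min (A₂.σ₀ 0) (r / 100)) A₂.σ₀, A₂.n, A₂.s_pos, hs, A₂.b_ge, A₂.θ_pos, A₂.θ_le, l0,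
    A₂.l_d, A₂.l_ε, A₂.l_zero, ?_, ?_, fun i => ⟨δ1 i, (δ2 i).trans (A₂.δ_mem i).2⟩,
    fun j => (δ2 _).trans (A₂.δ_e j), o1, fun n => (o2 n).trans (A₂.o_d n),
    fun n => (o2 n).trans (A₂.o_ε n), (o3 0).trans (show A.s₀ / 4 ≤ A.s₀ / 2 by linarith), ?_,
    fun i => (mul_le_mul_of_nonneg_left (hσ _) (by positivity)).trans (A₂.σ₁ i), ?_, A₂.cnt,
    fun i m h h' => (mul_le_mul_of_nonneg_left (up_le r2 m) (by positivity)).trans
      (A₂.rad i m h h'), fun i S g h => ?_,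
    fun j u hu y hy => A₂.near j u hu y (T.eq_th hu ▸ hy.trans (o2 0)), fun j x y hy hX => ?_,
    ?_⟩, ⟨d, d1.trans (min_le_right _ _), (o4 0 zero_le_one).trans c2, fun u h =>
      ⟨fun y hy => ⟨y, mem_cthickening_of_dist_le y _ d _ (.inr ⟨u, h, rfl⟩) hy, hT y⟩,
      fun x _ hx => hu u h x (hx.trans r3)⟩⟩, fun n hn => ⟨o5 n hn, (up_ne (by omega)).ge⟩⟩
  · rintro (_ | m) z
    exacts [d2 1 z le_rfl, A₂.vol _ z]
  · rintro (_ | m)
    exacts [⟨β0, β1⟩, A₂.β_mem _]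
  · rintro (_ | m)
    exacts [lt_min (A₂.σ_pos 0) (by positivity), A₂.σ_pos _]
  · rintro (_ | m)
    · have h : min (A₂.σ₀ 0) (r / 100) ≤ r / 100 := min_le_right _ _
      change 100 * min (A₂.σ₀ 0) (r / 100) ≤ r
      linarith
    · exact (mul_le_mul_of_nonneg_left (hσ _) (by norm_num)).trans (A₂.σ₂ _)
  · by_cases hi : lev i ≤ 1
    · exact q1 i S g (apx_mono h ((o4 _ hi).trans (c3 i hi)))
    · rw [δ4 i hi]
      exact A₂.fit₁ i S g (T.apx (A.far_marg i) (o3 _) (o2 _) h)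
  · by_contra hn
    exact hn (A₂.excl j x y
      (T.eq_near (not_disjoint_iff_nonempty_inter.1 hn) ▸ hy.trans (o2 0)) hX)
  rintro (_ | m) Z z hZT hs hX hβ S g h R hl ha hreg
  · have eT : Z.T = Zs.T := ContinuousAffineEquiv.ext fun y => (hZT y).trans (hT y).symm
    obtain ⟨a1, a2⟩ := h5 S g h Z z R _ P0 ξ eT hs.N hs.t hβ ξ0.le le_rfl
      (h6 δ δ1 (fun i ⟨y, h1, h2⟩ => δ3 i (by
        by_contra hi
        exact disjoint_left.1 (A.sh.disj (k := 0) (k' := lev i) (by omega) (by norm_num)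
          (by norm_num)) h2 (A.marg i (supp_sub _ h1)))) g h hl)
      (apx_mono ha ((o4 _ zero_le_one).trans c1))
      (fun y hy hy' => hy (hX.symm ▸ ⟨y, cthickening_subset_of_subset _ subset_union_left
        (thickening_subset_cthickening _ _ hy'), rfl⟩))
      (fun x hx hx' => by
        obtain ⟨b1, b2, b3⟩ := hreg x hx (eT.symm ▸ hx')
        exact ⟨b1, ⟨_, b2, T.hom.left_inv hx⟩, b3⟩)
    rw [← eT, ← hs.N] at a1
    have eo : Z.o k (1 / 100) = o₀ := by rw [ZD.o, hs.N, hs.t, hs.θ, hs.ϑ]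
    exact ⟨.of_osc a1 (eo.symm ▸ o0.le) fun c _ => by rw [eo, hβ]; exact min_le_right _ _,
      fun c hc x hx y hy => (a1 c hc x hx y hy).trans (min_le_left _ _), a2⟩
  have hf := A.far_shl (n := 2 * (m + 1)) (by omega)
  refine A₂.fit₂ (m + 1) Z z hZT hs hX hβ S g h
    (R ∩ shl B.Λ A.d₀ (2 * (m + 1)) (3 / 10) (13 / 10)) (lay_mono hl δ2)
    (T.apx (fun u h1 h2 y hy hy' => hf u h1 h2 y hy hy'.2) (o3 _) (o2 _) fun c hc => ha c
      (hc.imp (fun h => h.mono (inter_subset_inter_right _ inter_subset_left))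
        fun h => h.mono (inter_subset_inter_right _ inter_subset_left))) fun x hx hx' => ?_
  obtain ⟨b1, b2, b3⟩ := hreg x hx hx'
  have e : T.base.f x = B.f x := T.eq hf hx (A.sh.mono (by norm_num) (by norm_num) b2)
    (.inr (by rw [show T.base.f x = T.f x from rfl, dist_self]; linarith))
  rw [e] at b2 b3
  refine ⟨b1, b2, subset_inter b3 fun y hy => A.sh.mono (by norm_num) (by norm_num)
    (A.sh.move (c := 1 / 10) b2 ?_)⟩
  linarith [mem_closedBall.1 hy, A₂.l_d (m + 1), hd (2 * (m + 1))]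

end P073.Zn
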