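import Vale.Agent.P073Y.Zn.All
import Vale.Agent.P073Y.Zn2.Plan2
import Vale.Agent.P073Y.Zn2.Batch2
import Vale.Agent.P073Y.Zn2.Cp
import Vale.Agent.P073Y.Zn2.St1x
import Vale.Agent.P073Y.Zn2.St2u
import Vale.Agent.P073Y.Zn2.Dyn4

/-!
# The two batches for a modified map, from the normalisation in one box
-/

namespace P073.Zn

open P073.Top

theorem plan2 (k : Cst) : PLAN2 k :=
  plan2_of (st1x_of shls (tyz nullt) stdz fit1 excl) (st2_of stdz modl nullt fitw)
    (st2u_of stdz modl0 nullt fitw) (st3_of stdz) (og_of gauge3) (og2_of gauge3) cl (dyn1_of invb)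
    (dyn2_of (fitc invb) fitt) dyn3 dyn4 k

theorem batch2 {p : ℝ} (h1 : 1 ≤ p) (h3 : p < 3) : P2.BATCH2 p := by
  have hp : 0 < p := one_pos.trans_le h1
  obtain ⟨k, hk, hL⟩ := layer' h1 h3
  exact batch2_of_plan hk hL (cubes2 hp) (plan2 k) (ncong hp) nrm_ok

end P073.Zn
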