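import Vale.Agent.P073Y.Zn.Plan
import Vale.Agent.P073Y.P2.Defs

/-!
# The plan for a modified map: statements
-/

open Set Metric Topology Filter MeasureTheory
open scoped NNReal ENNReal

namespace P073.Zn

open P073.Top
open P073.P2 (Mdf)

/-- the choice of the free cubes, with the form of the cubes in the second family -/
def CUBES2 (p : ℝ) : Prop := ∃ C : ℝ≥0, ∀ {Ω : Set E3} (S : Src Ω) (h : E3 → E3) (w₀ : E3)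
  (w : S.Q.ι → ℝ≥0∞) {A A' : Type} (x : A → E3) (r σ : A → ℝ) (x' : A' → E3) (r' σ' : A' → ℝ)
  (n : A → ℕ) (El : Set S.Q.ι), Bl S w₀ w x r σ → Bl S w₀ w x' r' σ' →
  (∀ a, {b | (closedBall (x a) (r a) ∩ closedBall (x' b) (r' b)).Nonempty}.encard ≤ n a ∧
    100 * (n a + 1) * σ a ≤ r a ∧
    ∀ b, (closedBall (x a) (r a) ∩ closedBall (x' b) (r' b)).Nonempty →
      100 * n a * r' b ≤ r a) →
  (∀ φ, S.Q.dim φ = 2 → ((∃ a, S.Q.cell φ ⊆ closedBall (x a) (r a)) ∨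
    ∃ b, S.Q.cell φ ⊆ closedBall (x' b) (r' b)) → φ ∈ El ∪ (junk S x r ∪ junk S x' r')) →
  ∃ (I : Type) (y : I → E3) (s : I → ℝ), Free S y s ∧
    (∀ i, (∃ a, closedBall (y i) (s i) ⊆ closedBall (x a) (r a)) ∨
      ∃ b, closedBall (y i) (s i) ⊆ closedBall (x' b) (r' b) ∧ y i ∈ latt w₀ (σ' b) ∧
        ∃ m : ℕ, s i = m * σ' b) ∧
    (∀ φ ∈ junk S x r ∪ junk S x' r', ∃ i, S.Q.cell φ ⊆ ball (y i) (s i)) ∧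
    ∑' i, ENNReal.ofReal (s i) * En 2 p h (sphere (y i) (s i)) ≤
      C * tot El (fun φ => w φ * S.E p h φ)

/-- the moduli after a layer, over one region -/
def MODL0 : Prop := ∀ (k : Cst) {Λ : Set E3} {I : Type} (Z : I → ZD) (R R' : Set E3) (γ' : ℝ),
  LFIn (fun i => (Z i).supp) Λ → (∀ i j, i ≠ j → Disjoint ((Z i).marg 1) (Z j).supp) →
  0 < γ' → cthickening γ' R ⊆ R' → IsCompact R' → R' ⊆ Λ →
  ∃ (γ L : ℝ) (Pl : Set E3), 0 < γ ∧ 1 ≤ L ∧ IsCompact Pl ∧ volume Pl = 0 ∧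
    ∀ ξ : ℝ, 0 < ξ → ∃ δ₀ : ℝ, 0 < δ₀ ∧ ∀ δ : I → ℝ, (∀ i, 0 < δ i) →
      (∀ i, ((Z i).supp ∩ R').Nonempty → δ i ≤ δ₀) → ∀ {Ω : Set E3} (g h : E3 → E3),
        Lay k Ω Z δ g h → Mod Ω g h R Pl γ L ξ

variable {J : Type} {k : Cst} {B : Base J}

/-- two more properties of the first stage -/
structure St1.Ext (A : St1 k B) : Prop where
  far : ∀ x ∈ B.Ω₀, B.f x ∈ shl B.Λ A.d₀ 0 3 0
  ball : ∀ j x, (closedBall x (A.r (.inl j)) ∩ thickening A.s₁ (B.Y j).K).Nonempty →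
    x ∈ B.Ω ∧ B.f x ∈ (A.Z (.inl j)).marg 2

/-- existence of the first stage with these properties -/
def ST1X : Prop := ∀ (k : Cst) {J : Type} (B : Base J), ∃ A : St1 k B, A.Ext

/-- the points of `R` are far from the modified region -/
def St1.Far (A : St1 k B) (R : Set E3) : Prop :=
  ∀ u ∈ B.Ω₀, (∀ j, u ∉ (B.Y j).G) → ∀ y, dist y (B.f u) ≤ A.s₀ → y ∉ R

theorem St1.far_marg (A : St1 k B) (i : J ⊕ ℕ) : A.Far ((A.Z i).marg 2) :=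
  fun u h1 h2 y hy => A.sep u h1 h2 y hy i

theorem St1.far_shl (A : St1 k B) {n : ℕ} (hn : n ≠ 0) :
    A.Far (shl B.Λ A.d₀ n (3 / 10) (13 / 10)) := fun u h1 _ y hy =>
  disjoint_left.1 (A.sh.disj₀ hn (by norm_num) (by norm_num))
    (A.sh.move (c := 1 / 1000) (A.far u h1) (by
      rw [dk, pow_zero]
      linarith [A.s₀_d]))

/-- a modification of the map -/
structure Tw (A : St1 k B) where
  /-- the modified map -/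
  f : E3 → E3
  /-- its inverse -/
  f' : E3 → E3
  ext : A.Ext
  hom : HomeoOn f f' B.Ω B.Λ
  mdf : Mdf B.Ω (B.Ω₀ \ ⋃ j, (B.Y j).G) B.f f (A.s₀ / 10)

variable {A : St1 k B}

theorem Tw.dist_le (T : Tw A) {x : E3} (hx : x ∈ B.Ω) : dist (T.f x) (B.f x) ≤ A.s₀ / 10 :=
  (T.mdf x hx).elim (fun h => by rw [h, dist_self]; linarith [A.s₀_pos]) (·.2)

/-- the maps agree near a far set -/
theorem Tw.eq (T : Tw A) {R : Set E3} (hR : A.Far R) {x y : E3} (hx : x ∈ B.Ω) (hy : y ∈ R)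
    (hd : dist y (B.f x) ≤ A.s₀ / 2 ∨ dist y (T.f x) ≤ A.s₀ / 2) : T.f x = B.f x := by
  refine (T.mdf x hx).resolve_right fun ⟨⟨u, h1, h2⟩, h3⟩ => ?_
  refine hR u h1.1 (fun j hj => h1.2 (mem_iUnion.2 ⟨j, hj⟩)) y ?_ hy
  have := A.s₀_pos
  rcases hd with hd | hd
  · linarith [dist_triangle y (B.f x) (B.f u)]
  · linarith [dist_triangle4 y (T.f x) (B.f x) (B.f u)]

theorem Tw.eq_near (T : Tw A) {j : J} {x : E3}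
    (h : (closedBall x (A.r (.inl j)) ∩ thickening A.s₁ (B.Y j).K).Nonempty) : T.f x = B.f x :=
  T.eq (A.far_marg _) (T.ext.ball j x h).1 (T.ext.ball j x h).2
    (.inl (by rw [dist_self]; linarith [A.s₀_pos]))

theorem Tw.eq_th (T : Tw A) {j : J} {x : E3} (h : x ∈ thickening A.s₁ (B.Y j).K) :
    T.f x = B.f x := T.eq_near ⟨x, mem_closedBall_self (A.r_pos _).le, h⟩

/-- a cell on which `g` is close to the modified map near a far set -/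
theorem Tw.eq_cell (T : Tw A) {R C : Set E3} (hR : A.Far R) (hC : C ⊆ B.Ω) {g : E3 → E3} {o : ℝ}
    (ho : o ≤ A.s₀ / 4) (h : (g '' C ∩ R).Nonempty ∨ (T.f '' C ∩ R).Nonempty)
    (hd : ∀ x ∈ C, ∀ y ∈ C, dist (g x) (T.f y) ≤ o) : EqOn T.f B.f C := fun y hy => by
  have := A.s₀_pos
  rcases h with ⟨_, ⟨x, h1, rfl⟩, h2⟩ | ⟨_, ⟨x, h1, rfl⟩, h2⟩
  · exact T.eq hR (hC hy) h2 (.inr (by linarith [hd x h1 y hy]))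
  · exact T.eq hR (hC hy) h2 (.inr (by
      linarith [dist_triangle_left (T.f x) (T.f y) (g x), hd x h1 x h1, hd x h1 y hy]))

theorem Tw.apx (T : Tw A) {R : Set E3} (hR : A.Far R) {S : Src B.Ω} {g : E3 → E3} {o o' : ℝ}
    (ho : o ≤ A.s₀ / 4) (ho' : o ≤ o') (h : Apx S T.f g R o) : Apx S B.f g R o' := fun c hc => by
  have h1 : (g '' S.Q.cell c ∩ R).Nonempty ∨ (T.f '' S.Q.cell c ∩ R).Nonempty := by
    refine hc.imp id ?_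
    rintro ⟨_, ⟨x, h1, rfl⟩, h2⟩
    exact ⟨_, ⟨x, h1, T.eq hR (cell_sub c h1) h2
      (.inl (by rw [dist_self]; linarith [A.s₀_pos]))⟩, h2⟩
  intro x hx y hy
  rw [← T.eq_cell hR (cell_sub c) ho h1 (h c h1) hy]
  exact (h c h1 x hx y hy).trans ho'

/-- the data for the modified map -/
def Tw.base (T : Tw A) : Base J :=
  { B with
    f := T.f
    f' := T.f'
    Y := fun j => { B.Y j with
      null := by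
        rw [image_congr fun x hx => T.eq_th (self_subset_thickening A.s₁_pos _ hx)]
        exact (B.Y j).null }
    hom := T.hom }

/-- the first stage for the modified map -/
noncomputable def Tw.st1 (T : Tw A) : St1 k T.base :=
  { A with
    s₀ := A.s₀ / 2
    far := fun x hx => A.sh.mono (by norm_num) (by norm_num : 0 + 1 ≤ (1 : ℝ))
      (A.sh.move (c := 1) (y' := T.f x) (T.ext.far x hx) (by
        rw [dk, pow_zero]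
        linarith [T.dist_le (B.sub hx), A.s₀_d, A.d_pos])) |> fun h => ⟨h.1, fun h => absurd rfl h⟩
    s₀_pos := half_pos A.s₀_pos
    s₀_d := by linarith [A.s₀_d, A.s₀_pos]
    s₀_ε := (half_le_self A.s₀_pos.le).trans A.s₀_ε
    ty := fun j => ⟨(A.ty j).1, by
      refine le_of_eq_of_le ?_ (A.ty j).2.1
      congr 2
      ext x
      exact and_congr_right fun hx => by
        rw [show T.base.f x = B.f x from T.eq_th (self_subset_thickening A.s₁_pos _ hx)]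
        rfl,
      (A.ty j).2.2⟩
    margG := fun j y hy => by
      obtain ⟨x, h1, rfl⟩ := A.margG j hy
      exact ⟨x, h1, T.eq (A.far_marg _) ((B.Y j).subΩ h1) hy
        (.inl (by rw [dist_self]; linarith [A.s₀_pos]))⟩
    fit := fun i δ hδ => by
      obtain ⟨o, h1, h2⟩ := A.fit i δ hδ
      exact ⟨min o (A.s₀ / 4), lt_min h1 (by linarith [A.s₀_pos]), fun S g h =>
        h2 S g (T.apx (A.far_marg i) (min_le_right _ _) (min_le_left _ _) h)⟩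
    near := fun j => (A.near j).imp fun o h => ⟨h.1, fun u hu y hy =>
      h.2 u hu y (T.eq_th hu ▸ hy)⟩
    excl := fun j => (A.excl j).imp fun o h => ⟨h.1, fun x y hy hX => by
      by_contra hn
      exact hn (h.2 x y (T.eq_near (not_disjoint_iff_nonempty_inter.1 hn) ▸ hy) hX)⟩
    sep := fun u h1 h2 y hy => A.sep u h1 h2 y (by
      have h3 : dist y (T.f u) ≤ A.s₀ / 2 := hy
      linarith [dist_triangle y (T.f u) (B.f u), T.dist_le (B.sub h1), A.s₀_pos])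
    lipT := fun j y y' h => A.lipT j y y' (h.trans (half_le_self A.s₀_pos.le)) }

variable {s b θ e : ℝ}

/-- the centres of level zero avoid a neighbourhood of the image of `Pl` -/
def St2.Av (A₂ : St2 A s b θ e) (Pl : Set E3) : Prop := ∃ d : ℝ, d ≤ A.s₀ ∧ A₂.o 0 ≤ d / 2 ∧
  ∀ u ∈ Pl, (∀ y, dist y (B.f u) ≤ d → (A₂.l 0)⁻¹ • y ∈ A₂.X 0) ∧
    ∀ x ∈ B.Ω, dist x u ≤ A₂.r 0 → dist (B.f x) (B.f u) ≤ d / 2

/-- the second stage for the modified map; only the levels zero and one change -/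
def ST2U : Prop := ∀ {k : Cst} {J : Type} {B : Base J} {A : St1 k B} {s b θ e : ℝ}
  (A₂ : St2 A s b θ e) (T : Tw A) (Pl : Set E3), s ≤ A.s₀ / 2 → IsCompact Pl → Pl ⊆ B.Ω →
  volume (T.f '' Pl) = 0 → ∃ A₂' : St2 T.st1 s b θ e, A₂'.Av Pl ∧
    ∀ n, 2 ≤ n → min (A₂.o n) (A.s₀ / 4) ≤ A₂'.o n ∧ A₂.σ₀ n ≤ A₂'.σ₀ n

/-- the shells and the gauge do not depend on the modification -/
def OG2 : Prop := ∀ {k : Cst} {J : Type} {B : Base J} {A : St1 k B} {s b θ e : ℝ}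
  (A₂ : St2 A s b θ e) (κ : ℝ), 0 < κ → ∃ o : E3 → ℝ, Gauge o B.Ω ∧ ∀ T : Tw A,
  (∀ n, T.st1.O n = A.O n) ∧ ∀ (A₂' : St2 T.st1 s b θ e) (c₁ : ℝ), c₁ ≤ A.s₀ / 4 →
    c₁ ≤ A₂'.o 0 → c₁ ≤ A₂'.o 1 → (∀ n, 2 ≤ n → min (A₂.o n) (A.s₀ / 4) ≤ A₂'.o n) →
    ∀ (P : Set E3) (S : Src B.Ω) (g : E3 → E3),
    (∀ c, ∀ x ∈ S.Q.cell c, ∀ y ∈ S.Q.cell c, dist (g x) (T.f y) ≤ min (o y) c₁ ∨
      ((S.Q.cell c ∩ cubes P (3 * s / 4)).Nonempty ∧ dist (g x) (T.f y) ≤ κ * s)) →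
    App A₂' P κ S g

/-- the balls and the region `Tz` -/
def DYN4 : Prop := ∀ {k : Cst} {J : Type} {B : Base J} {A : St1 k B} {s b θ e : ℝ}
  {A₂ : St2 A s b θ e} {P : Set E3} {κ : ℝ} (A₃ : St3 A₂ P κ) (S : Src B.Ω) (g : E3 → E3)
  (Tz Pl : Set E3), Cl A₃ S g → A₂.Av Pl → Tz ⊆ B.Ω₀ \ ⋃ j, (B.Y j).G → Pl ⊆ Tz →
  frontier Tz ⊆ Pl →
  (∀ i, ∀ u ∈ Tz, g u ∉ (A.Z i).supp) ∧
  ∀ h, Lay k B.Ω A.Z A₂.δ g h → ∀ m, ∀ z ∈ nbr 1 (A₃.Z m).B, ¬ A₂.NC P m z →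
    ∀ x ∈ Ctr B.Ω h (A₃.Z m) z, closedBall x (A₃.r m z) ⊆ A.O (2 * m) →
    Disjoint (closedBall x (A₃.r m z)) Tz ∨ closedBall x (A₃.r m z) ⊆ Tz \ Pl

/-- the geometry of the two batches for a modified map -/
def PLAN2 (k : Cst) : Prop := ∃ κ : ℝ → ℝ → ℝ, (∀ b θ, 1 ≤ b → 0 < θ → 0 < κ b θ) ∧
  ∀ {Ω Λ Ω₀ : Set E3} {f f' : E3 → E3} {ε : ℝ} {J : Type} [Fintype J] (Y : J → TyZ Ω f),
  IsOpen Ω → IsOpen Λ → Bornology.IsBounded Λ → HomeoOn f f' Ω Λ → 0 < ε →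
  IsCompact Ω₀ → Ω₀ ⊆ Ω → (∀ j, (Y j).K ⊆ Ω₀) →
  (∀ j j', j ≠ j' → Disjoint (Y j).G (Y j').G) →
  ∃ (l : J → ℝ) (v : J → E3) (Z₁ : J ⊕ ℕ → ZD) (s₁ s₀ : ℝ), 0 < s₁ ∧ 0 < s₀ ∧
    (∀ j, 0 < l j ∧ (∀ y, (Z₁ (.inl j)).T y = (l j)⁻¹ • (Y j).Bm y - v j) ∧
      (Y j).N * volume {x ∈ (Y j).K | (Z₁ (.inl j)).T (f x) ∈ strips (Y j).N} ≤
        10 * volume (Y j).K ∧
      (Z₁ (.inl j)).N = (Y j).N ∧ (Z₁ (.inl j)).t = (Y j).t ∧ (Z₁ (.inl j)).θ = (Y j).θ ∧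
      (Z₁ (.inl j)).ϑ = (Y j).ϑ ∧ (Z₁ (.inl j)).L = (Y j).L) ∧ (∀ i, (Z₁ (.inr i)).Std) ∧
  ∀ (s b θ e : ℝ), 0 < s → s ≤ s₀ → 1 ≤ b → 0 < θ → θ ≤ 1 → 0 < e →
  ∃ (o : E3 → ℝ) (O : ℕ → Set E3) (σ₀ : ℕ → ℝ), Gauge o Ω ∧
    (∀ n, IsOpen (O n) ∧ O n ⊆ Ω ∧ 0 < σ₀ n) ∧ LFIn O Ω ∧
    (∀ n n', n + 2 ≤ n' → Disjoint (O n) (O n')) ∧
  ∀ (f₁ f₁' : E3 → E3) (P Tz Pl : Set E3), HomeoOn f₁ f₁' Ω Λ →
    Mdf Ω (Ω₀ \ ⋃ j, (Y j).G) f f₁ s₀ → Cores Ω₀ f₁ (⋃ j, (Y j).G) P s b (κ b θ) →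
    Tz ⊆ Ω₀ \ ⋃ j, (Y j).G → IsCompact Pl → Pl ⊆ Tz → frontier Tz ⊆ Pl →
    volume (f₁ '' Pl) = 0 →
  ∃ (c₁ : ℝ) (σ₁ : ℕ → ℝ) (δ₁ : J ⊕ ℕ → ℝ) (r₁ : J ⊕ ℕ → (Fin 3 → ℤ) → ℝ) (lev : J ⊕ ℕ → ℕ)
    (n : J ⊕ ℕ → ℕ) (Z₂ : ℕ → ZD) (δ₂ : ℕ → ℝ) (r₂ : ℕ → (Fin 3 → ℤ) → ℝ), 0 < c₁ ∧
    (∀ n, min (σ₀ n) c₁ ≤ σ₁ n) ∧ (∀ j, δ₁ (.inl j) ≤ e) ∧
    (∀ i z, 100 * (n i + 1) * σ₁ (lev i) ≤ r₁ i z) ∧ (∀ i, (Z₂ i).Std) ∧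
  ∀ (S : Src Ω) (g : ConHomeo Ω Λ),
    (∀ c, ∀ x ∈ S.Q.cell c, ∀ y ∈ S.Q.cell c, dist (g.toFun x) (f₁ y) ≤ min (o y) c₁ ∨
      ((S.Q.cell c ∩ cubes P (3 * s / 4)).Nonempty ∧ dist (g.toFun x) (f₁ y) ≤ κ b θ * s)) →
    Rdy k S Λ Z₁ δ₁ r₁ g.toFun ∧
    (∀ j, ∀ u ∈ thickening s₁ (Y j).K ∩ Ω, ∃ z, nbr 1 {z} ⊆ (Z₁ (.inl j)).B ∧
      (Z₁ (.inl j)).T (g.toFun u) ∈ lbox (Y j).N 0 z) ∧
    (∀ j, ∀ u ∈ Ω, g.toFun u ∈ (Z₁ (.inl j)).supp → u ∈ (Y j).G) ∧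
    (∀ i, ∀ z ∈ nbr 1 (Z₁ i).B, ∀ x ∈ Ctr Ω g.toFun (Z₁ i) z,
      Spot f₁ ε (⋃ j, thickening s₁ (Y j).K) (deepc P s θ) x (r₁ i z) ∧
      closedBall x (r₁ i z) ⊆ O (lev i) \ cubes P (3 * s / 4) ∧
      Disjoint (closedBall x (r₁ i z)) Tz) ∧
    (∀ u ∈ deepc P s θ, (∀ i, g.toFun u ∉ (Z₁ i).supp) ∧ ∀ i, g.toFun u ∉ (Z₂ i).supp) ∧
  ∀ h : ConHomeo Ω Λ, Lay k Ω Z₁ δ₁ g.toFun h.toFun →
    Rdy k S Λ Z₂ δ₂ r₂ h.toFun ∧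
    (∀ j, ∀ u ∈ thickening s₁ (Y j).K ∩ Ω, ∀ i, h.toFun u ∉ (Z₂ i).supp) ∧
    (∀ i, ∀ z ∈ nbr 1 (Z₂ i).B, ∀ x ∈ Ctr Ω h.toFun (Z₂ i) z,
      Spot f₁ ε (⋃ j, thickening s₁ (Y j).K) (deepc P s θ) x (r₂ i z) ∧
      ((∃ k', closedBall x (r₂ i z) ⊆ O k' \ cubes P (3 * s / 4) ∧ 100 * σ₁ k' ≤ r₂ i z ∧
          (Disjoint (closedBall x (r₂ i z)) Tz ∨ closedBall x (r₂ i z) ⊆ Tz \ Pl)) ∨
        ∃ q ∈ P, closedBall x (r₂ i z) ⊆ closedBall q (3 * s / 2) ∧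
          100 * (κ b θ * s) ≤ r₂ i z)) ∧
    (∀ c, (∃ i, c ∈ hit S g.toFun (Z₁ i).core) ∨ (∃ i, c ∈ hit S h.toFun (Z₂ i).core) ∨
      S.Q.cell c ⊆ cubes P (s / 2)) ∧
    (∀ i, ∀ z ∈ nbr 1 (Z₁ i).B, ∀ x ∈ Ctr Ω g.toFun (Z₁ i) z, ∃ F : Set (Idx Z₂),
      F.encard ≤ n i ∧ ∀ a : Idx Z₂, ∀ x' ∈ Ctr Ω h.toFun (Z₂ a.1.1) a.1.2,
        (closedBall x (r₁ i z) ∩ closedBall x' (r₂ a.1.1 a.1.2)).Nonempty →
        a ∈ F ∧ 100 * n i * r₂ a.1.1 a.1.2 ≤ r₁ i z) ∧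
    ∀ h' : ConHomeo Ω Λ, Lay k Ω Z₂ δ₂ h.toFun h'.toFun → ∀ u ∈ Ω, dist (h'.toFun u) (f₁ u) ≤ ε

end P073.Zn
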